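import Vale.Agent.P284.H650.T.Spec
import Vale.Agent.P284.H213.G.Rep
import Vale.Agent.P284.H885.Pull
import Vale.Agent.P284.H885.Trans

/-!
# P284 (helper619), T3⁺ (N2): the data on `(Y, G)`, `Y = E / G`

The standing data and the output of the limit, natural for `Γ` in the charts of `X`, give the standing
data and the output of the limit for `G` in the charts of `Y`.
-/

open scoped Manifold ContDiff Topology InnerProductSpace ComplexConjugate
open Filter Set Metric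

noncomputable section

namespace Vale.Agent.P284.H619.T

open Vale.Agent.P272.K Vale.Agent.P284.H894 Vale.Agent.P284.H894.G Vale.Agent.P284.H894.V
  Vale.Agent.P284.H894.W Vale.Agent.P284.H573 Vale.Agent.P284.H213.Grp Vale.Agent.P284.H395
  Vale.Agent.P284.H619 Vale.Agent.P284.H378 Vale.Agent.P284.H478.G
  Vale.Agent.P284.H988.N Vale.Agent.P284.H494 Vale.Agent.P284.H494.N Vale.Agent.P284.H501.Core
  Vale.Agent.P284.H119.Kaz Vale.Agent.P284.H213.Q Vale.Agent.P284.H837.N Vale.Agent.P284.H650.T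
  Vale.Agent.P284.H625.N

section
variable {n q : ℕ} {X Y E Γ W : Type} [TopologicalSpace X] [TopologicalSpace Y]
  [ChartedSpace (Cm n) X] [ChartedSpace (Cm n) Y] [TopologicalSpace E] {p : E → X} {pY : E → Y}
  {π : Y → X} {F : E → Cm q} [NormedAddCommGroup W] [InnerProductSpace ℂ W]

theorem rv_fl (h : H885.Etale n π) (hpi : ∀ y, π (pY y) = p y) : RV n pY F = RV n p F := by
  ext t
  simp only [RV, mem_setOf_eq, reg_fl h hpi]

theorem jpot_pb (h : H885.Etale n π) (hpi : ∀ y, π (pY y) = p y)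
    {Θ : E → Chart n X → (Cm n →L[ℂ] W)} {y : E} {e' : Chart n Y} {G : Cm n → W}
    (he : At e' (pY y)) (hG : JPot pY F (pb π Θ) y e' G) :
    JPot p F Θ y (H885.base π e') G := by
  obtain ⟨-, h2⟩ := base_at h hpi he
  refine ⟨by rw [← ap hpi h2]; exact hG.an, ?_⟩
  filter_upwards [hG.pot] with y' hy' ξ hξ
  rw [← ap hpi h2]
  exact hy' ξ (by rw [vs_fl hpi h2]; exact hξ)

theorem vpotJ_pb (h : H885.Etale n π) (hpi : ∀ y, π (pY y) = p y)
    {Θ : E → Chart n X → (Cm n →L[ℂ] W)} {J : W →SL[starRingEnd ℂ] W} {t : Cm q} {u : E → W}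
    (hu : VPotJ p F t Θ J u) : VPotJ pY F t (pb π Θ) J u := by
  intro y e' G hy he hG hpot
  obtain ⟨h1, h2⟩ := base_at h hpi he
  obtain ⟨c₀, hc₀⟩ := hu y (H885.base π e') G hy h1 (by rw [← ap hpi h2]; exact hG) (by
    filter_upwards [hpot] with y' hy' ht ξ hξ
    rw [← ap hpi h2]
    exact hy' ht ξ (by rw [vs_fl hpi h2]; exact hξ))
  refine ⟨c₀, ?_⟩
  filter_upwards [hc₀] with y' hy' ht
  rw [ap hpi h2]
  exact hy' ht

theorem twoPot_pb (h : H885.Etale n π) (hpi : ∀ y, π (pY y) = p y)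
    {Θ : E → Chart n X → (Cm n →L[ℂ] W)} {J : W →SL[starRingEnd ℂ] W} {T : E → E → W}
    (hT : TwoPot p F Θ J T) : TwoPot pY F (pb π Θ) J T := by
  refine ⟨fun y y' y'' h1 h2 h3 => hT.add y y' y'' h1 h2 (by rw [← rv_fl h hpi]; exact h3), ?_⟩
  intro y y' e e' G G' hF hRV he he' hG hG'
  obtain ⟨h1, h2⟩ := base_at h hpi he
  obtain ⟨h3, h4⟩ := base_at h hpi he'
  obtain ⟨a, ha, hev⟩ := hT.loc y y' (H885.base π e) (H885.base π e') G G' hF
    (by rw [← rv_fl h hpi]; exact hRV) h1 h3 (jpot_pb h hpi he hG) (jpot_pb h hpi he' hG')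
  refine ⟨a, ha, ?_⟩
  filter_upwards [hev] with z hz hFz
  rw [ap hpi h2, ap hpi h4]
  exact hz hFz

theorem tEqui_pb [Group Γ] [MulAction Γ E] (h : H885.Etale n π) (hpi : ∀ y, π (pY y) = p y)
    {G : Subgroup Γ} {ρ : Γ →* (W ≃ₗᵢ[ℂ] W)} {T : E → E → W} (hT : TEqui n p F ρ T) :
    TEqui n pY F (ρ.comp G.subtype) T := fun g y y' h1 h2 =>
  hT g y y' h1 (by rw [← rv_fl h hpi]; exact h2)

theorem jdat_pb {G : Type} [Group G] [MulAction G E] (h : H885.Etale n π) (hY : Continuous pY)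
    (hpi : ∀ y, π (pY y) = p y) {c : G → Cm q} {ρ : G →* (W ≃ₗᵢ[ℂ] W)}
    {S : E → Chart n X → Cm n [⋀^Fin (q + 1)]→L[ℂ] W} {Θ : E → Chart n X → (Cm n →L[ℂ] W)}
    {J : W →SL[starRingEnd ℂ] W} (hJ : JDat p F c ρ S Θ J) :
    JDat pY F c ρ (pb π S) (pb π Θ) J := by
  refine ⟨sRel_pb h hY hpi hJ.rel, hJ.isJ, fun x h1 h2 => hJ.total x ?_ ?_, fun t ht hreg => ?_⟩
  · intro y e he ξ
    obtain ⟨h3, h4⟩ := br_at h hpi he
    rw [← pbS_eq h hpi hJ.rel.rel.form h3 h4]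
    exact h1 y _ h3 ξ
  · intro y e he ξ
    obtain ⟨h3, h4⟩ := br_at h hpi he
    rw [← pbS_eq h hpi hJ.rel.rel.form h3 h4]
    exact h2 y _ h3 ξ
  · obtain ⟨u, hu, hV⟩ := hJ.pot t ht fun y hy => (reg_fl h hpi).1 (hreg y hy)
    exact ⟨u, hu, vpotJ_pb h hpi hV⟩

end

/-- **(N2)** the standing data on `(Y, G)` -/
theorem std_pb {n q : ℕ} {X : Type} [TopologicalSpace X] [T2Space X] [CompactSpace X]
    [ConnectedSpace X] [ChartedSpace (Cm n) X] [IsManifold 𝓘(ℂ, Cm n) ω X]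
    {w : Chart n X → Cm n → Matrix (Fin n) (Fin n) ℂ} {E Γ : Type} [TopologicalSpace E]
    [ConnectedSpace E] [Group Γ] [MulAction Γ E] {p : E → X} {F : E → Cm q} {G K : Subgroup Γ}
    {A : Γ →* (Cm q ≃ₗ[ℂ] Cm q)} {c : Γ → Cm q} (hS : StdN w G p F A c K)
    {Y : Type} [TopologicalSpace Y] [T2Space Y] [CompactSpace Y] [ConnectedSpace Y]
    [ChartedSpace (Cm n) Y] [IsManifold 𝓘(ℂ, Cm n) ω Y] {pY : E → Y} {π : Y → X}
    (hπ : H885.Etale n π) (hpY : IsGalois G pY) (hpi : ∀ y, π (pY y) = p y) :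
    Std (H885.pull π w) pY F (fun g : G => c g) (K.subgroupOf G) := by
  obtain ⟨B, hB⟩ := hS.hol
  obtain ⟨y₀, hy₀⟩ := hS.reg
  have hKG : K ≤ G := fun g hg => ((hS.ker g).1 hg).1
  have hKe : K.subgroupOf G ≃* K := Subgroup.subgroupOfEquivOfLe hKG
  exact
    { kah := hπ.isKahler hS.kah
      gal := hpY
      hol := ⟨B, hπ.holB hpi hB⟩
      eqv := fun g y => by
        have h1 := hS.eqv (g : Γ) y
        rw [hS.dat.one _ g.2] at h1
        exact h1
      reg := ⟨y₀, (reg_fl hπ hpi).2 hy₀⟩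
      conn := (genConn_fl hπ hpi).2 hS.conn
      lat := hS.dat.lat
      ker := fun g => by
        rw [Subgroup.mem_subgroupOf, hS.ker]
        exact ⟨fun h => h.2, fun h => ⟨g.2, h⟩⟩
      fg := by
        have := hS.fg
        exact Group.fg_of_surjective (f := hKe.symm.toMonoidHom) hKe.symm.surjective
      nvi := fun h => hS.nvi (H465.V19.virtIndicable_of_equiv hKe h)
      fr := H213.G.FinRepIn.of_finiteIndex hS.fr G hS.dat.fi }

/-- **(N2)** the data on `(Y, G)`, `Y = E / G` -/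
theorem pbStmt : PbStmt := by
  intro n q X _ _ _ _ _ _ w E Γ _ _ _ _ p F G K A c hS Y _ _ _ _ _ _ pY π hπ _ hpY hpi
  refine ⟨std_pb hS hπ hpY hpi, rv_fl hπ hpi, ?_⟩
  intro W _ _ _ ρ S Θ J T hJ
  exact ⟨jdat_pb hπ hpY.cov.continuous hpi hJ.dat, twoPot_pb hπ hpi hJ.two,
    tEqui_pb hπ hpi hJ.equiT⟩

end Vale.Agent.P284.H619.T
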