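import Vale.Agent.P284.H619.PotW

/-!
# P284 (helper619), module T (T1): potentials of limits of real maps, with their real structure
-/

open scoped Manifold ContDiff Topology InnerProductSpace ComplexConjugate ENNReal Matrix
open Filter Set MeasureTheory Metric

noncomputable section

set_option linter.unusedSectionVars false

namespace Vale.Agent.P284.H619.Pot

open Vale.Agent.P272.K Vale.Agent.P284.H894 Vale.Agent.P284.H894.G Vale.Agent.P284.H894.V
  Vale.Agent.P284.H894.W Vale.Agent.P284.H501 Vale.Agent.P284.H501.Core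
  Vale.Agent.P284.H402.A Vale.Agent.P284.H551 Vale.Agent.P284.H366

/-! ### Functions with vanishing vertical derivative -/

section
variable {n q : ℕ} {X : Type} [TopologicalSpace X] [ChartedSpace (Cm n) X]
  {E : Type} [TopologicalSpace E] {p : E → X} {F : E → Cm q}
  {W : Type*} [NormedAddCommGroup W] [NormedSpace ℂ W] [CompleteSpace W]

/-- A function of the chart coordinate whose derivative vanishes on the vertical vectors at the
points of a regular fibre is locally constant along this fibre. -/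
theorem const_fib (hp : IsCoveringMap p) (hF : HolE n p F) {t : Cm q} {y : E} (hy : F y = t)
    {e : Chart n X} (he : At e (p y)) (hreg : Reg (n := n) p F y) {K : Cm n → W}
    (hK : AnalyticAt ℂ K (e (p y)))
    (hd : ∀ᶠ y' in 𝓝 y, F y' = t → ∀ ξ ∈ VS p F y' e, fderiv ℂ K (e (p y')) ξ = 0) :
    ∃ m : W, ∀ᶠ y' in 𝓝 y, F y' = t → K (e (p y')) = m := by
  obtain ⟨f, ψ, φ, ε, hpar⟩ := exists_Par hp hF hy he hreg
  have hKev : ∀ᶠ y' in 𝓝 y, AnalyticAt ℂ K (e (p y')) :=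
    (ev_iff hp he (Q := fun z => AnalyticAt ℂ K z)).2 hK.eventually_analyticAt
  have h1 := hpar.germ0 hp hy (Q := fun z => AnalyticAt ℂ K z ∧
      ∀ ξ, fderiv ℂ f z ξ = 0 → fderiv ℂ K z ξ = 0) (by
    filter_upwards [hd, hKev, hpar.fev.eventually_nhds, at_ev hp he] with y' g1 g2 g3 g4 g5
    refine ⟨g2, fun ξ hξ => g1 g5 ξ ?_⟩
    rw [mem_VS_iff hp hF g4, dFe_eq hp g4 g3]
    exact hξ)
  have h2 : ∀ᶠ u in 𝓝 (0 : Cm n), HasFDerivAt (fun u => K (ψ u)) (0 : Cm n →L[ℂ] W) u := by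
    filter_upwards [h1, isOpen_ball.mem_nhds (mem_ball_self hpar.pos)] with u g1 g2
    have g3 := g1.1.differentiableAt.hasFDerivAt.comp u
      (hpar.an u g2).differentiableAt.hasFDerivAt
    refine g3.congr_fderiv ?_
    ext η
    exact g1.2 _ (hpar.vert u g2 η)
  obtain ⟨r, hr, hball⟩ := Metric.eventually_nhds_iff_ball.1 h2
  refine ⟨K (ψ 0), ?_⟩
  refine hpar.back hp (Q := fun z => K z = K (ψ 0)) ?_
  filter_upwards [ball_mem_nhds (0 : Cm n) hr] with u hu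
  refine (convex_ball (0 : Cm n) r).is_const_of_fderivWithin_eq_zero (𝕜 := ℂ)
    (f := fun u => K (ψ u))
    (fun u hu => (hball u hu).differentiableAt.differentiableWithinAt) (fun u hu => ?_) hu
    (mem_ball_self hr)
  rw [fderivWithin_of_isOpen isOpen_ball hu, (hball u hu).fderiv]

end

section
variable {H : ℕ → Type} [∀ k, NormedAddCommGroup (H k)] [∀ k, InnerProductSpace ℂ (H k)]
  {U : Ultrafilter ℕ} {J : ∀ k, H k →SL[starRingEnd ℂ] H k}

/-- the conjugation of the ultraproduct is an involution -/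
theorem upJ_sq (hJ : ∀ k x, ‖J k x‖ ≤ ‖x‖) (hJJ : ∀ k x, J k (J k x) = x) (x : UP H U) :
    upMap U J (Jbd hJ) (upMap U J (Jbd hJ) x) = x := by
  refine dense_mk (fun x => upMap U J (Jbd hJ) (upMap U J (Jbd hJ) x) = x)
    (isClosed_eq ((ContinuousLinearMap.continuous _).comp (ContinuousLinearMap.continuous _))
      continuous_id) (fun x hx => ?_) x
  rw [upMap_mk (Jbd hJ) hx, upMap_mk (Jbd hJ) (bdJ hJ hx)]
  congr 1
  funext k
  exact hJJ k (x k)

end

section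
variable {n q : ℕ} {X : Type} [TopologicalSpace X] [ChartedSpace (Cm n) X]
  {E Γ : Type} [TopologicalSpace E] [Group Γ] [MulAction Γ E] {p : E → X} {F : E → Cm q}
  {H : ℕ → Type}
  [∀ k, NormedAddCommGroup (H k)] [∀ k, InnerProductSpace ℂ (H k)] {U : Ultrafilter ℕ}
  {Φ : ∀ k, E → H k} {J : ∀ k, H k →SL[starRingEnd ℂ] H k}
  [IsManifold 𝓘(ℂ, Cm n) ω X]

/-- **The potentials, general form.** Local data (`LocD`) at every point of a connected regular fibre,
with primitives `G` of the relative form of `S`. -/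
theorem potEJ [∀ k, CompleteSpace (H k)] (hG : IsGalois Γ p) (hF : HolE n p F) {c : Γ → Cm q}
    (hc : ∀ g y, F (g • y) = F y + c g) {t : Cm q} (hcon : IsConnected (F ⁻¹' {t}))
    (hreg : ∀ y, F y = t → Reg (n := n) p F y)
    (hJ : ∀ k x, ‖J k x‖ ≤ ‖x‖) (hJi : ∀ k x y, ⟪x, J k y⟫_ℂ = conj ⟪J k x, y⟫_ℂ)
    {ρ : ∀ k, Γ →* (H k ≃ₗᵢ[ℂ] H k)} (hρ : ∀ k g x, ρ k g (J k x) = J k (ρ k g x))
    (hΦ : ∀ k g y, Φ k (g • y) = ρ k g (Φ k y))
    {S : E → Chart n X → Cm n [⋀^Fin (q + 1)]→L[ℂ] UP H U} (hrel : RelE p F S)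
    (hform : FormE p S) (hloc : ∀ y, F y = t → ∃ (e : Chart n X) (f : Cm n → Cm q)
      (φ : ∀ k, Cm n → H k) (G : Cm n → UP H U), LocD U p F Φ J y e f φ G ∧
      ∀ᶠ y' in 𝓝 y, IsW (fderiv ℂ f (e (p y'))) (S y' e) (fderiv ℂ G (e (p y')))) :
    ∃ u : E → UP H U,
      (∀ y e, F y = t → At e (p y) → ∀ x : UP H U, ∃ g h : Cm n → ℂ,
        AnalyticAt ℂ g (e (p y)) ∧ AnalyticAt ℂ h (e (p y)) ∧ ∀ᶠ y' in 𝓝 y, F y' = t →
          ⟪x, u y'⟫_ℂ = g (e (p y')) + conj (h (e (p y'))) ∧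
          ∀ ξ ∈ VS p F y' e, fderiv ℂ g (e (p y')) ξ = ⟪x, ThE p F S y' e ξ⟫_ℂ) ∧
      (∀ y e (G₁ : Cm n → UP H U), F y = t → At e (p y) → AnalyticAt ℂ G₁ (e (p y)) →
        (∀ᶠ y' in 𝓝 y, F y' = t → ∀ ξ ∈ VS p F y' e,
          fderiv ℂ G₁ (e (p y')) ξ = ThE p F S y' e ξ) →
        ∃ c₀ : UP H U, ∀ᶠ y' in 𝓝 y, F y' = t →
          u y' = G₁ (e (p y')) + upMap U J (Jbd hJ) (G₁ (e (p y'))) + c₀) ∧
      ∀ g : Γ, c g = 0 → ∃ b : UP H U, ∀ y, F y = t → u (g • y) = upRep U ρ g (u y) + b := by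
  have hp := hG.cov
  obtain ⟨u, hu⟩ := exists_pot (Φ := Φ) (J := J) hp hF hcon hreg hJ (fun y hy => by
    obtain ⟨e, f, φ, G, h, -⟩ := hloc y hy
    exact ⟨e, f, φ, G, h⟩)
  set JU := upMap U J (Jbd hJ) with hJU
  refine ⟨u, ?_, ?_, ?_⟩
  · intro y e hyt he x₀
    obtain ⟨e', f, φ, G, hLD, hW⟩ := hloc y hyt
    obtain ⟨c₀, hc₀⟩ := hu y hyt _ _ _ _ hLD
    set τ : Cm n → Cm n := fun x => e' (e.symm x) with hτ
    have he' : At e' (p y) := hLD.mem
    have hτz : τ (e (p y)) = e' (p y) := by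
      show e' (e.symm (e (p y))) = e' (p y)
      rw [e.left_inv he.2]
    have hτan : AnalyticAt ℂ τ (e (p y)) := (transition he he').analyticAt
    have hGτ : AnalyticAt ℂ (fun x => G (τ x)) (e (p y)) := by
      refine AnalyticAt.comp (g := G) ?_ hτan
      rw [hτz]
      exact hLD.Gan
    have hin : ∀ x₁ : UP H U, AnalyticAt ℂ (fun x => ⟪x₁, G (τ x)⟫_ℂ) (e (p y)) := fun x₁ =>
      ((innerSL ℂ x₁).analyticAt _).comp hGτ
    refine ⟨fun x => ⟪x₀, G (τ x)⟫_ℂ + ⟪x₀, c₀⟫_ℂ, fun x => ⟪JU x₀, G (τ x)⟫_ℂ,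
      (hin x₀).add analyticAt_const, hin _, ?_⟩
    have hev1 : ∀ᶠ y' in 𝓝 y, AnalyticAt ℂ G (e' (p y')) ∧ AnalyticAt ℂ f (e' (p y')) :=
      (ev_iff hp he' (Q := fun z => AnalyticAt ℂ G z ∧ AnalyticAt ℂ f z)).2
        (hLD.Gan.eventually_analyticAt.and hLD.fan.eventually_analyticAt)
    have hev3 : ∀ᶠ y' in 𝓝 y, AnalyticAt ℂ τ (e (p y')) :=
      (ev_iff hp he (Q := fun x => AnalyticAt ℂ τ x)).2 hτan.eventually_analyticAt
    filter_upwards [hev1, hev3, at_ev hp he, at_ev hp he', hc₀, hW, hLD.fev.eventually_nhds] with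
      y' g1 g3 g4 g4' g5 g6 g7 hy't
    have hτz' : τ (e (p y')) = e' (p y') := by
      show e' (e.symm (e (p y'))) = e' (p y')
      rw [e.left_inv g4.2]
    constructor
    · simp only [hτz']
      have h1 : conj ⟪JU x₀, G (e' (p y'))⟫_ℂ = ⟪x₀, JU (G (e' (p y')))⟫_ℂ :=
        (inner_upJ hJ hJi x₀ (G (e' (p y')))).symm
      rw [h1, ← inner_add_right, ← inner_add_right, g5 hy't]
      congr 1
      abel
    · intro ξ hξ
      have hd1 : DifferentiableAt ℂ τ (e (p y')) := g3.differentiableAt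
      have hd2 : DifferentiableAt ℂ G (τ (e (p y'))) := by
        rw [hτz']
        exact g1.1.differentiableAt
      -- the derivative of `g`
      have e1 : fderiv ℂ (fun x => ⟪x₀, G (τ x)⟫_ℂ + ⟪x₀, c₀⟫_ℂ) (e (p y')) ξ =
          ⟪x₀, fderiv ℂ G (e' (p y')) (fderiv ℂ τ (e (p y')) ξ)⟫_ℂ := by
        have h1 : HasFDerivAt (fun x => ⟪x₀, G (τ x)⟫_ℂ + ⟪x₀, c₀⟫_ℂ)
            ((innerSL ℂ x₀).comp ((fderiv ℂ G (e' (p y'))).comp (fderiv ℂ τ (e (p y')))))
            (e (p y')) := by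
          have h2 : HasFDerivAt (fun x => G (τ x))
              ((fderiv ℂ G (e' (p y'))).comp (fderiv ℂ τ (e (p y')))) (e (p y')) := by
            have h3 := hd2.hasFDerivAt.comp (e (p y')) hd1.hasFDerivAt
            rw [hτz'] at h3
            exact h3
          exact ((innerSL ℂ x₀).hasFDerivAt.comp (e (p y')) h2).add_const ⟪x₀, c₀⟫_ℂ
        rw [h1.fderiv]
        rfl
      rw [e1]
      congr 1
      -- the relative form
      rw [ThE_change hp hF hrel hform g4 g4' (hreg y' hy't) hξ]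
      have hrep : H501.Rep p F y' e' f := ⟨g1.2, g7⟩
      have hsj : Function.Surjective (fderiv ℂ f (e' (p y'))) := hreg y' hy't e' f g4' g7
      have hvert : fderiv ℂ f (e' (p y')) (fderiv ℂ τ (e (p y')) ξ) = 0 := by
        have h1 := (mem_VS_iff hp hF g4).1 hξ
        rw [dFe_change hp hF g4 g4', dFe_eq hp g4' g7] at h1
        exact h1
      exact (ThE_isTh (S := S) hp y' e' f g4' hrep hsj _ g6 _ hvert).symm
  · intro y e G₁ hyt he hG₁ hd₁
    obtain ⟨e', f, φ, G, hLD, hW⟩ := hloc y hyt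
    obtain ⟨c₀, hc₀⟩ := hu y hyt _ _ _ _ hLD
    set τ : Cm n → Cm n := fun x => e' (e.symm x) with hτ
    have he' : At e' (p y) := hLD.mem
    have hτz : τ (e (p y)) = e' (p y) := by
      show e' (e.symm (e (p y))) = e' (p y)
      rw [e.left_inv he.2]
    have hτan : AnalyticAt ℂ τ (e (p y)) := (transition he he').analyticAt
    have hGτ : AnalyticAt ℂ (fun x => G (τ x)) (e (p y)) := by
      refine AnalyticAt.comp (g := G) ?_ hτan
      rw [hτz]
      exact hLD.Gan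
    have hev1 : ∀ᶠ y' in 𝓝 y, AnalyticAt ℂ G (e' (p y')) ∧ AnalyticAt ℂ f (e' (p y')) :=
      (ev_iff hp he' (Q := fun z => AnalyticAt ℂ G z ∧ AnalyticAt ℂ f z)).2
        (hLD.Gan.eventually_analyticAt.and hLD.fan.eventually_analyticAt)
    have hev2 : ∀ᶠ y' in 𝓝 y, AnalyticAt ℂ G₁ (e (p y')) :=
      (ev_iff hp he (Q := fun z => AnalyticAt ℂ G₁ z)).2 hG₁.eventually_analyticAt
    have hev3 : ∀ᶠ y' in 𝓝 y, AnalyticAt ℂ τ (e (p y')) :=
      (ev_iff hp he (Q := fun x => AnalyticAt ℂ τ x)).2 hτan.eventually_analyticAt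
    obtain ⟨m, hm⟩ := const_fib hp hF hyt he (hreg y hyt) (hGτ.sub hG₁) (by
      filter_upwards [hev1, hev2, hev3, at_ev hp he, at_ev hp he', hW, hLD.fev.eventually_nhds,
        hd₁] with y' g1 g2 g3 g4 g4' g6 g7 g8 hy't ξ hξ
      have hτz' : τ (e (p y')) = e' (p y') := by
        show e' (e.symm (e (p y'))) = e' (p y')
        rw [e.left_inv g4.2]
      have h2 : HasFDerivAt (fun x => G (τ x))
          ((fderiv ℂ G (e' (p y'))).comp (fderiv ℂ τ (e (p y')))) (e (p y')) := by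
        have h3 := HasFDerivAt.comp (g := G) (g' := fderiv ℂ G (τ (e (p y')))) (e (p y'))
          (by
            have : DifferentiableAt ℂ G (τ (e (p y'))) := by
              rw [hτz']
              exact g1.1.differentiableAt
            exact this.hasFDerivAt) g3.differentiableAt.hasFDerivAt
        rw [hτz'] at h3
        exact h3
      have h4 : HasFDerivAt (fun x => G (τ x) - G₁ x)
          ((fderiv ℂ G (e' (p y'))).comp (fderiv ℂ τ (e (p y'))) - fderiv ℂ G₁ (e (p y')))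
          (e (p y')) := h2.sub g2.differentiableAt.hasFDerivAt
      have hrep : H501.Rep p F y' e' f := ⟨g1.2, g7⟩
      have hsj : Function.Surjective (fderiv ℂ f (e' (p y'))) := hreg y' hy't e' f g4' g7
      have hvert : fderiv ℂ f (e' (p y')) (fderiv ℂ τ (e (p y')) ξ) = 0 := by
        have h1 := (mem_VS_iff hp hF g4).1 hξ
        rw [dFe_change hp hF g4 g4', dFe_eq hp g4' g7] at h1
        exact h1
      have h5 : fderiv ℂ (fun x => G (τ x) - G₁ x) (e (p y')) ξ = 0 := by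
        rw [h4.fderiv, sub_apply, ContinuousLinearMap.comp_apply, g8 hy't ξ hξ,
          ThE_change hp hF hrel hform g4 g4' (hreg y' hy't) hξ, sub_eq_zero]
        exact (ThE_isTh (S := S) hp y' e' f g4' hrep hsj _ g6 _ hvert).symm
      exact h5)
    refine ⟨m + JU m + c₀, ?_⟩
    filter_upwards [hm, hc₀, at_ev hp he] with y' k1 k2 k3 k4
    have hτz' : τ (e (p y')) = e' (p y') := by
      show e' (e.symm (e (p y'))) = e' (p y')
      rw [e.left_inv k3.2]
    have k5 : G (τ (e (p y'))) - G₁ (e (p y')) = m := k1 k4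
    rw [hτz'] at k5
    have k6 : G (e' (p y')) = G₁ (e (p y')) + m := by rw [← k5]; abel
    rw [k2 k4, k6, map_add]
    abel
  · intro g hg
    have hFg : ∀ y, F (g • y) = F y := fun y => by rw [hc, hg, add_zero]
    have hpg : ∀ y', p (g • y') = p y' := fun y' => ((hG.orb _ _).2 ⟨g, rfl⟩).symm
    refine equi_pot (n := n) (F := F) (t := t) (J := JU) (A := upRep U ρ g) (g := fun y => g • y) hp
      hcon (fun x => rep_upJ hJ ρ hρ g x) (hG.cont g) hpg hFg fun y hy => ?_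
    obtain ⟨e, f, φ, G, hLD, -⟩ := hloc y hy
    have hLD' := hLD.smul hG hρ (hΦ · g) hFg
    obtain ⟨c₀, hc₀⟩ := hu _ hy _ _ _ _ hLD
    obtain ⟨c₁, hc₁⟩ := hu _ ((hFg y).trans hy) _ _ _ _ hLD'
    refine ⟨e, f, G, fun z => upRep U ρ g (G z), c₀, c₁, hLD.mem, hLD.fan, hLD.fev,
      hreg y hy e f hLD.mem hLD.fev, hLD.Gan, ?_, ?_, hc₀, hc₁⟩
    · have := hLD'.Gan
      rwa [hpg] at this
    · filter_upwards [hLD.Gan.eventually_analyticAt] with z k3 ξ _
      have k4 : HasFDerivAt (fun z => upRep U ρ g (G z))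
          ((((upRep U ρ g).toContinuousLinearEquiv : UP H U ≃L[ℂ] UP H U) :
          UP H U →L[ℂ] UP H U).comp (fderiv ℂ G z)) z :=
        ((((upRep U ρ g).toContinuousLinearEquiv : UP H U ≃L[ℂ] UP H U) :
          UP H U →L[ℂ] UP H U)).hasFDerivAt.comp z k3.differentiableAt.hasFDerivAt
      rw [k4.fderiv]
      rfl

end

/-- **potentials** of the limit of real maps, with the real structure -/
def PotVJStmt : Prop :=
  ∀ (n : ℕ) (X : Type) [TopologicalSpace X] [T2Space X] [CompactSpace X] [ConnectedSpace X]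
    [ChartedSpace (Cm n) X] [IsManifold 𝓘(ℂ, Cm n) ω X]
    (w : Chart n X → Cm n → Matrix (Fin n) (Fin n) ℂ), IsKahler w →
    ∀ (E Γ : Type) [TopologicalSpace E] [ConnectedSpace E] [Group Γ] [MulAction Γ E]
      (p : E → X) (hG : IsGalois Γ p) (C : Coc n Γ) (D : ECoc p C) (K : KM C)
      (hKw : ∀ a, K.w a = w (D.e a)) (q : ℕ) (F : E → Cm q) (c : Γ → Cm q) (B : ℝ)
      (hF : HolB p w F B) (hc : Eqv F c) (hreg : ∃ y, Reg (n := n) p F y)
      (H : ℕ → Type) [∀ k, NormedAddCommGroup (H k)] [∀ k, InnerProductSpace ℂ (H k)]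
      [∀ k, CompleteSpace (H k)] (U : Ultrafilter ℕ) (π : ∀ k, Γ →* (H k ≃ₗᵢ[ℂ] H k))
      (cj : ∀ k, H k →SL[starRingEnd ℂ] H k) (hcj : H553.PV.Cjs cj),
      (∀ k x y, ⟪x, cj k y⟫_ℂ = conj ⟪cj k x, y⟫_ℂ) →
      (∀ k g x, cj k (π k g x) = π k g (cj k x)) →
      ∀ (u : ∀ k, Γ → C.I → Cm n → H k), (∀ k, VMap C (π k) (u k)) →
      (∀ k γ a z, cj k (u k γ a z) = u k γ a z) →
      VSeq C U π (fun k => vtf (hfF hG D K hKw hF hc hreg) (u k)) → ∀ (Dm : MD C) (t : Cm q),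
      IsConnected (F ⁻¹' {t}) → (∀ y, F y = t → Reg (n := n) p F y) →
      ∃ v : E → UP H U,
        (∀ y e, F y = t → At e (p y) → ∀ x : UP H U, ∃ g h : Cm n → ℂ,
          AnalyticAt ℂ g (e (p y)) ∧ AnalyticAt ℂ h (e (p y)) ∧ ∀ᶠ y' in 𝓝 y, F y' = t →
            ⟪x, v y'⟫_ℂ = g (e (p y')) + conj (h (e (p y'))) ∧
            ∀ ξ ∈ VS p F y' e, fderiv ℂ g (e (p y')) ξ = ⟪x, ThE p F (SE hG D (LimV Dm U
              fun k => vtf (hfF hG D K hKw hF hc hreg) (u k))) y' e ξ⟫_ℂ) ∧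
        (∀ y e (G : Cm n → UP H U), F y = t → At e (p y) → AnalyticAt ℂ G (e (p y)) →
          (∀ᶠ y' in 𝓝 y, F y' = t → ∀ ξ ∈ VS p F y' e, fderiv ℂ G (e (p y')) ξ =
            ThE p F (SE hG D (LimV Dm U
              fun k => vtf (hfF hG D K hKw hF hc hreg) (u k))) y' e ξ) →
          ∃ c₀ : UP H U, ∀ᶠ y' in 𝓝 y, F y' = t → v y' = G (e (p y')) +
            upMap U cj (Jbd fun k x => (hcj.norm k x).le) (G (e (p y'))) + c₀) ∧
        ∀ k : Γ, c k = 0 → ∃ b : UP H U, ∀ y, F y = t → v (k • y) = upRep U π k (v y) + b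


/-- **Potentials of limits of Hilbert valued maps, with the real structure** -/
theorem potVJ : PotVJStmt := by
  classical
  intro n X _ _ _ _ _ _ w hw E Γ _ _ _ _ p hG C D K hKw q F c B hF hc hreg H _ _ _ U π cj hcj
    hcji hcjπ u hu hur hV Dm t hcon hregt
  have hp := hG.cov
  have hVΩ : ∀ a, Dm.Q a ⊆ C.Ω a := fun a => (Dm.Q_sub a).trans (V_sub_Ω C a)
  have han : ∀ γ a, ∀ z ∈ C.Ω a, AnalyticAt ℂ (Fc D F γ a) z := fun γ a z hz =>
    Fc_an hG D hF γ hz
  have hsurj : ∀ γ a z, z ∈ Dm.Q a → F (γ • D.σ a z) = t →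
      Function.Surjective (fderiv ℂ (Fc D F γ a) z) := fun γ a z hz hzt =>
    (reg_iff hG D hF γ (hVΩ a hz)).1 (hregt _ hzt)
  have hHol : HolE n p F := fun y e he => by
    obtain ⟨f, hf⟩ := rep_of_holB hG D hF y e he
    exact ⟨f, hf.2, hf.1⟩
  have hJ : ∀ (k : ℕ) (x : H k), ‖cj k x‖ ≤ ‖x‖ := fun k x => (hcj.norm k x).le
  set θ := hfF hG D K hKw hF hc hreg with hθ
  set s := LimV Dm U (fun k => vtf θ (u k)) with hs
  have hcf : H551.CForm C Dm.Q s := cform_limV Dm hV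
  have hrel : ∀ γ a, ∀ z ∈ Dm.Q a, Function.Surjective (fderiv ℂ (Fc D F γ a) z) →
      ∀ (ξ : Fin (q + 1) → Cm n) (i j : Fin (q + 1)), i ≠ j →
        fderiv ℂ (Fc D F γ a) z (ξ i) = 0 → fderiv ℂ (Fc D F γ a) z (ξ j) = 0 →
        s γ a z ξ = 0 := by
    intro γ a z hz hsur ξ i j hij hi hj
    exact LimV_rel Dm θ hV γ a hz (inj_of_surj (thF_apply D hc γ a z) hsur) hij
      ((vert_iff hc γ a z (ξ i)).1 hi) ((vert_iff hc γ a z (ξ j)).1 hj)
  have hrelE : RelE p F (SE hG D s) := relE_of hG.cov hHol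
    fun y e f he hf hsur ξ i j hij hi hj =>
      SE_rel hG D hcf (fun y _ he => rep_of_holB hG D hF y _ he) (i := i) (j := j)
        (fun γ a z hz hsur ξ hi hj => hrel γ a z hz hsur ξ i j hij hi hj) he hf hsur hi hj
  have hform : FormE p (SE hG D s) := SE_form hG D hcf
  -- the maps on the covering
  have hpt : ∀ y : E, ∃ (γ : Γ) (a : C.I) (z : Cm n), z ∈ Dm.Q a ∧ γ • D.σ a z = y := by
    intro y
    obtain ⟨γ, a, -, h2, h3⟩ := D.exists_sheet hG y
    exact ⟨γ, a, _, Dm.W_sub a h2, h3⟩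
  choose γs as zs hzs hys using hpt
  set Φ : ∀ k, E → H k := fun k y => u k (γs y) (as y) (zs y) with hΦ
  have hΦe : ∀ γ a z, z ∈ Dm.Q a → ∀ k, Φ k (γ • D.σ a z) = u k γ a z := by
    intro γ a z hz k
    obtain ⟨hO, hT, hκ⟩ := D.eq_imp hG (hVΩ _ (hzs (γ • D.σ a z))) (hVΩ a hz) (hys _)
    have e := (hu k).compat (γs (γ • D.σ a z)) _ _ _ hO
    rw [hT, ← hκ] at e
    exact e
  have hΦeq : ∀ k g y, Φ k (g • y) = π k g (Φ k y) := by
    intro k g y
    have h1 := hΦe (g * γs y) (as y) (zs y) (hzs y) k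
    rw [mul_smul, hys] at h1
    rw [h1, (hu k).equi g (γs y) (as y) (zs y) (hVΩ _ (hzs y))]
  -- the local data
  have hnear : ∀ (γ : Γ) a z, z ∈ Dm.Q a → ∀ᶠ y in 𝓝 (γ • D.σ a z),
      D.e a (p y) ∈ Dm.Q a ∧ γ • D.σ a (D.e a (p y)) = y ∧ p y ∈ (D.e a).source := by
    intro γ a z hz
    have hzΩ := hVΩ a hz
    have hcπ : ContinuousAt p (γ • D.σ a z) := hG.cov.continuous.continuousAt
    have hpy : p (γ • D.σ a z) = (D.e a).symm z := D.proj' hG γ hzΩ
    have he : ContinuousAt (fun y => D.e a (p y)) (γ • D.σ a z) := by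
      refine ContinuousAt.comp ?_ hcπ
      rw [hpy]
      exact (D.e a).continuousAt (D.source hzΩ)
    have hval : D.e a (p (γ • D.σ a z)) = z := D.e_proj hG γ hzΩ
    have h1 : ∀ᶠ y in 𝓝 (γ • D.σ a z), D.e a (p y) ∈ Dm.Q a := by
      refine he.eventually (p := fun z' => z' ∈ Dm.Q a) ?_
      show ∀ᶠ z' in 𝓝 (D.e a (p (γ • D.σ a z))), z' ∈ Dm.Q a
      rw [hval]
      exact (Dm.Q_open a).mem_nhds hz
    filter_upwards [h1, D.ev hG γ hzΩ] with y g1 g2
    exact ⟨g1, g2.2.2, g2.1⟩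
  have hloc : ∀ γ a z, z ∈ Dm.Q a → F (γ • D.σ a z) = t → ∃ G : Cm n → UP H U,
      LocD U p F Φ cj (γ • D.σ a z) (D.e a) (Fc D F γ a) (fun k => u k γ a) G ∧
      ∀ᶠ z' in 𝓝 z, IsW (fderiv ℂ (Fc D F γ a) z') (s γ a z') (fderiv ℂ G z') := by
    intro γ a z hz hzt
    have hzΩ := hVΩ a hz
    have hez : D.e a (p (γ • D.σ a z)) = z := D.e_proj hG γ hzΩ
    have hQ : ∀ᶠ z' in 𝓝 z, z' ∈ Dm.Q a := (Dm.Q_open a).mem_nhds hz
    obtain ⟨G, hG1, hG2, hG3⟩ := pieceV (s := s γ a) (φ := fun k => u k γ a) (hV.fseq Dm γ a)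
      Dm.mol Dm.pos.le le_rfl (z₀ := z) hz (EventuallyEq.refl _ _)
      (by
        filter_upwards [hQ] with z' g1
        exact LimV_closed Dm hV (fun k => vtf_closed θ (hu k)) γ a g1)
      (han γ a z hzΩ) (hsurj γ a z hz hzt)
      (by
        have hs0 := hsurj γ a z hz hzt
        obtain ⟨I, hI⟩ := dL_ne hs0
        have han₁ : AnalyticAt ℂ (fun z => dL (fderiv ℂ (Fc D F γ a) z)
            (fun i => Pi.single (I i) 1)) z := an_dL (han γ a z hzΩ).fderiv _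
        filter_upwards [hQ, han₁.continuousAt.eventually_ne hI] with z' g1 g2 ξ i j hij hi hj
        refine hrel γ a z' g1 ?_ ξ i j hij hi hj
        by_contra hcon
        exact g2 (dL_not_surj hcon _))
      (by
        filter_upwards [hQ] with z' g1 k w' v' hv'
        exact vtf_snoc θ (hu k) γ a (hVΩ a g1) (fun v i => thF_apply D hc γ a z' v i) w' hv')
    refine ⟨G, ⟨D.at_sheet hG γ hzΩ, by rw [hez]; exact han γ a z hzΩ, Fc_rep hG D F γ hzΩ, ?_, ?_,
      ?_, by rw [hez]; exact hG1, by rw [hez]; exact hG3⟩, hG2⟩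
    · filter_upwards [hnear γ a z hz] with y' g1 k
      have := hΦe γ a _ g1.1 k
      rwa [g1.2.1] at this
    · rw [hez]
      filter_upwards [(Ω_open a).mem_nhds hzΩ] with z' g1 k
      exact ((hu k).smooth γ a z' g1).of_le (by norm_cast)
    · exact Eventually.of_forall fun z' k => hur k γ a z'
  refine potEJ (Φ := Φ) (J := cj) (ρ := π) hG hHol hc hcon hregt hJ hcji
    (fun k g x => (hcjπ k g x).symm) hΦeq hrelE hform fun y hy => ?_
  obtain ⟨G, hLD, hG2⟩ := hloc (γs y) (as y) (zs y) (hzs y) (by rw [hys]; exact hy)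
  have hys' := hys y
  have hez : D.e (as y) (p (γs y • D.σ (as y) (zs y))) = zs y :=
    D.e_proj hG (γs y) (hVΩ _ (hzs y))
  have hn := hnear (γs y) (as y) (zs y) (hzs y)
  rw [hys'] at hLD hez hn
  refine ⟨_, _, _, G, hLD, ?_⟩
  have hev1 : ∀ᶠ y' in 𝓝 y, IsW (fderiv ℂ (Fc D F (γs y) (as y)) (D.e (as y) (p y')))
      (s (γs y) (as y) (D.e (as y) (p y'))) (fderiv ℂ G (D.e (as y) (p y'))) := by
    refine (ev_iff hp hLD.mem (Q := fun z => IsW (fderiv ℂ (Fc D F (γs y) (as y)) z)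
      (s (γs y) (as y) z) (fderiv ℂ G z))).2 ?_
    rw [hez]
    exact hG2
  filter_upwards [hev1, hn] with y' g1 g2
  have h5 := SE_eq hG D hcf (γs y) g2.1 (e := D.e (as y)) (by
    rw [g2.2.1]
    exact ⟨D.mem _, g2.2.2⟩)
  rw [g2.2.1] at h5
  have h6 : fderiv ℂ (fun z => D.e (as y) ((D.e (as y)).symm z)) (D.e (as y) (p y')) =
      ContinuousLinearMap.id ℂ (Cm n) := by
    have h7 : (fun z => D.e (as y) ((D.e (as y)).symm z)) =ᶠ[𝓝 (D.e (as y) (p y'))] id := by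
      filter_upwards [(D.e (as y)).open_target.mem_nhds ((D.e (as y)).map_source g2.2.2)] with z hz
      exact (D.e (as y)).right_inv hz
    rw [h7.fderiv_eq, fderiv_id]
  rw [h5, h6]
  exact g1

end Vale.Agent.P284.H619.Pot
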