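import Vale.Agent.P284.H650.T.Spec
import Vale.Agent.P284.H366.J.Res
import Vale.Agent.P284.H501.Core.Th
import Vale.Agent.P284.H625.NS.LocForm
import Vale.Agent.P284.H224.Top

/-!
# P284 (helper619), T3⁺, (T2'): what follows from `JDat`
-/

open scoped Manifold ContDiff Topology InnerProductSpace ComplexConjugate
open Filter Set Metric

noncomputable section

set_option linter.unusedSectionVars false

namespace Vale.Agent.P284.H619.T

open Vale.Agent.P272.K Vale.Agent.P284.H894 Vale.Agent.P284.H894.G Vale.Agent.P284.H894.V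
  Vale.Agent.P284.H894.W Vale.Agent.P284.H573 Vale.Agent.P284.H213.Grp Vale.Agent.P284.H395
  Vale.Agent.P284.H619 Vale.Agent.P284.H625 Vale.Agent.P284.H378 Vale.Agent.P284.H478.G
  Vale.Agent.P284.H494 Vale.Agent.P284.H501 Vale.Agent.P284.H501.Core
  Vale.Agent.P284.H119.Kaz Vale.Agent.P284.H213.Q Vale.Agent.P284.H650.T

section
variable {n q : ℕ} {X E Γ W : Type} [TopologicalSpace X] [ChartedSpace (Cm n) X]
  [TopologicalSpace E] {p : E → X} {F : E → Cm q}
  {w : Chart n X → Cm n → Matrix (Fin n) (Fin n) ℂ} {B : ℝ}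
  [Group Γ] [MulAction Γ E] [NormedAddCommGroup W] [InnerProductSpace ℂ W]
  {π : Γ →* (W ≃ₗᵢ[ℂ] W)} {S : E → Chart n X → Cm n [⋀^Fin (q + 1)]→L[ℂ] W}
  {Θ : E → Chart n X → (Cm n →L[ℂ] W)}

theorem holE_of (hF : HolB p w F B) : HolE n p F := fun y e he => by
  obtain ⟨f, hf⟩ := rep_exists hF y e he
  exact ⟨f, hf.2, hf.1⟩

/-- **Local primitives** of `Θ` at regular points. -/
theorem exists_jpot [IsManifold 𝓘(ℂ, Cm n) ω X] [CompleteSpace W] (hp : IsCoveringMap p) (hF : HolB p w F B)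
    (hS : SRel p F π S Θ) {y : E} {e : Chart n X} (hy : Reg (n := n) p F y) (he : At e (p y)) :
    ∃ G, JPot p F Θ y e G := by
  have hp' := hp.isLocalHomeomorph
  obtain ⟨f, hf⟩ := rep_exists hF y e he
  obtain ⟨s, hs, hsS⟩ := hS.rel.form.holo y e he
  have hsu := (H338.reg_iff hp' he hf).1 hy
  obtain ⟨I, hI⟩ := dL_ne hsu
  set u : Fin q → Cm n := fun i => Pi.single (I i) 1 with hu
  have hd : AnalyticAt ℂ (fun z => dL (fderiv ℂ f z) u) (e (p y)) := an_dL hf.1.fderiv u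
  have hev : ∀ᶠ y' in 𝓝 y, At e (p y') ∧ H501.Rep p F y' e f ∧ S y' e = s (e (p y')) ∧
      Function.Surjective (fderiv ℂ f (e (p y'))) := by
    filter_upwards [ep_at hp' he, hf.near hp' he, hsS,
      (ep_ev hp' he).2 (hd.continuousAt.eventually_ne hI)] with y' h1 h2 h3 h4
    exact ⟨h1, h2, h3, surj_of_dL h4⟩
  obtain ⟨G, hG, hGW⟩ := rel_poincare (t := f) (s := s) (z₀ := e (p y)) hf.1 hs
    (hS.closed y e s he hs hsS) (by
      refine (ep_ev hp' he).1 ?_
      filter_upwards [hev] with y' h ξ i j hij hi hj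
      rw [← h.2.2.1]
      exact hS.relP h.1 h.2.1 h.2.2.2 ξ i j hij hi hj) hsu
  refine ⟨G, hG, ?_⟩
  filter_upwards [hev, (ep_ev hp' he).2 hGW] with y' h h5 ξ hξ
  rw [← h.2.2.1] at h5
  exact (hS.th y' e f h.1 h.2.1 h.2.2.2 _ h5 ξ ((mem_VS' hp h.1 h.2.1).1 hξ)).symm

/-- a vector orthogonal to the values of `Θ` is orthogonal to the values of `S` -/
theorem orth [ConnectedSpace E] [IsManifold 𝓘(ℂ, Cm n) ω X] (hp : IsCoveringMap p)
    (hF : HolB p w F B) (hex : ∃ y, Reg (n := n) p F y) (hS : SRel p F π S Θ) {x : W}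
    (hx : ∀ y e, Reg (n := n) p F y → At e (p y) → ∀ ξ ∈ VS p F y e, ⟪x, Θ y e ξ⟫_ℂ = 0)
    (y : E) (e : Chart n X) (he : At e (p y)) (ξ : Fin (q + 1) → Cm n) :
    ⟪x, S y e ξ⟫_ℂ = 0 := by
  have hp' := hp.isLocalHomeomorph
  -- regular points
  have key : ∀ y e, Reg (n := n) p F y → At e (p y) → ∀ ξ, ⟪x, S y e ξ⟫_ℂ = 0 := by
    intro y e hy he ξ
    obtain ⟨f, hf⟩ := rep_exists hF y e he
    have hsu := (H338.reg_iff hp' he hf).1 hy
    obtain ⟨Θ', hΘ'⟩ := exists_isW (hS.relP he hf hsu) hsu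
    set Sx : Cm n [⋀^Fin (q + 1)]→L[ℂ] ℂ := (innerSL ℂ x).compContinuousAlternatingMap (S y e)
      with hSx
    have h1 : Sx = 0 := by
      refine relP_zero hsu fun u η hη => ?_
      show ⟪x, S y e (Fin.snoc (α := fun _ => Cm n) u η)⟫_ℂ = 0
      rw [hΘ'.snoc u hη, ← hS.th y e f he hf hsu Θ' hΘ' η hη, inner_smul_right,
        hx y e hy he η ((mem_VS' hp he hf).2 hη), mul_zero]
    exact DFunLike.congr_fun h1 ξ
  have hcl : y ∈ closure {y | Reg (n := n) p F y} := by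
    rcases Nat.eq_zero_or_pos q with rfl | hq
    · refine subset_closure ?_
      intro e f _ _ v
      exact ⟨0, Subsingleton.elim _ _⟩
    · exact H10.reg_dense hq hp hF hex y
  obtain ⟨s, hs, hsS⟩ := hS.rel.form.holo y e he
  by_contra hne
  rw [hsS.self_of_nhds] at hne
  have hc : ContinuousAt (fun z => ⟪x, s z ξ⟫_ℂ) (e (p y)) := by
    have h2 : ContinuousAt (fun z => s z ξ) (e (p y)) :=
      (ContinuousAlternatingMap.apply ℂ (Cm n) W ξ).continuous.continuousAt.comp hs.continuousAt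
    exact continuousAt_const.inner h2
  have h3 : ∀ᶠ y' in 𝓝 y, ⟪x, s (e (p y')) ξ⟫_ℂ ≠ 0 :=
    (ep_ev hp' he).2 (hc.eventually_ne hne)
  rw [mem_closure_iff_frequently] at hcl
  obtain ⟨y', hy', ⟨h4, h5⟩, h6⟩ := (hcl.and_eventually ((h3.and hsS).and (ep_at hp' he))).exists
  refine h4 ?_
  rw [← h5]
  exact key y' e hy' h6 ξ

end

/-- **(T2')** -/
theorem thStmt : ThStmt := by
  intro n q X _ _ _ _ _ _ w E Γ _ _ _ _ p F c K hst W _ _ _ π S Θ J hJ
  obtain ⟨B, hB⟩ := hst.hol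
  have hG := hst.gal
  have hp := hG.cov
  have hper : Per p w F c := ⟨hst.hol, hst.eqv, hst.lat.disc⟩
  obtain ⟨hRo, hRd, -, -, -, -, hRc⟩ := H224.rvStmt n q X w E Γ p hG F c hper hst.reg
  have hRc' : ∀ t ∈ RV n p F, IsConnected (F ⁻¹' {t}) := by
    obtain ⟨T, -, hTi, hTc⟩ := hst.conn
    have hT : ∃ t, t ∉ T := by
      by_contra hcon
      push Not at hcon
      have : T = univ := eq_univ_of_forall hcon
      rw [this, interior_univ] at hTi
      exact (univ_nonempty (α := Cm q)).ne_empty hTi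
    obtain ⟨t, ht⟩ := hT
    exact hRc ⟨t, (hTc t ht).2, (hTc t ht).1⟩
  have hprim : ∀ y e, Reg (n := n) p F y → At e (p y) → ∃ G, JPot p F Θ y e G :=
    fun y e hy he => exists_jpot hp hB hJ.rel hy he
  have hconj : H366.J.IsConj π J := ⟨hJ.isJ.invol, hJ.isJ.inner, hJ.isJ.comm⟩
  have hTh₀ : ThE p F K π Θ univ := thE_of hG hB hst.eqv hJ.rel
    fun t ht => absurd (mem_univ t) ht
  have hTh : ThE p F K π Θ (RV n p F)ᶜ := by
    refine thE_of hG hB hst.eqv hJ.rel fun t ht => ?_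
    have htR : t ∈ RV n p F := not_not.1 ht
    obtain ⟨u, hu1, hu2⟩ := hJ.pot t (hRc' t htR) htR
    refine ⟨u, H366.J.vpot_of hp hconj ?_ ?_ ?_ hu2, ?_, ?_⟩
    · intro y e hy he
      obtain ⟨A, hA, hA'⟩ := hTh₀.hol y e (htR y hy) he
      exact ⟨A, hA, hA'.mono fun y' h _ => h⟩
    · exact fun y e e' hy he he' ξ hξ => hTh₀.change y e e' (htR y hy) he he' ξ hξ
    · intro y e hy he
      obtain ⟨G, hG'⟩ := hprim y e (htR y hy) he
      exact ⟨G, hG'.an, hG'.pot.mono fun y' h _ => h⟩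
    · exact fun k _ y e hy he ξ hξ => hTh₀.equi k y e (htR y hy) he ξ hξ
    · intro k hk
      exact hu1 k ((hst.ker k).1 hk)
  have htot : ∀ x : W,
      (∀ y e, Reg (n := n) p F y → At e (p y) → ∀ ξ ∈ VS p F y e, ⟪x, Θ y e ξ⟫_ℂ = 0) →
      (∀ y e, Reg (n := n) p F y → At e (p y) → ∀ ξ ∈ VS p F y e, ⟪J x, Θ y e ξ⟫_ℂ = 0) →
      x = 0 := fun x h1 h2 =>
    hJ.total x (orth hp hB hst.reg hJ.rel h1) (orth hp hB hst.reg hJ.rel h2)
  refine ⟨?_, hTh, hprim, htot, ?_⟩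
  · have h1 : IsClosed (RV n p F)ᶜ := hRo.isClosed_compl
    have h2 : interior (RV n p F)ᶜ = ∅ := hRd.interior_compl
    exact (h1.isNowhereDense_iff.2 h2).isMeagre
  · intro g hg
    -- the space of the vectors fixed by `g`
    set V : Submodule ℂ W := LinearMap.ker
      (((π g).toContinuousLinearEquiv : W →L[ℂ] W) - ContinuousLinearMap.id ℂ W :
        W →L[ℂ] W).toLinearMap with hV
    have hmem : ∀ x, x ∈ V ↔ π g x = x := fun x => by
      rw [hV, LinearMap.mem_ker]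
      show π g x - x = 0 ↔ _
      rw [sub_eq_zero]
    have hVc : IsClosed (V : Set W) := ContinuousLinearMap.isClosed_ker _
    have hVtop : V = ⊤ := by
      have : CompleteSpace V := hVc.completeSpace_coe
      rw [← Submodule.orthogonal_eq_bot_iff, Submodule.eq_bot_iff]
      intro x hx
      rw [Submodule.mem_orthogonal] at hx
      refine htot x (fun y e hy he ξ hξ => ?_) fun y e hy he ξ hξ => ?_
      · rw [← inner_conj_symm, hx _ ((hmem _).2 (hg y e hy he ξ hξ)), map_zero]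
      · have h3 : J (Θ y e ξ) ∈ V := (hmem _).2 (by
          rw [← hJ.isJ.comm, hg y e hy he ξ hξ])
        have h4 := hx _ h3
        have h5 : ⟪J x, Θ y e ξ⟫_ℂ = ⟪J (Θ y e ξ), x⟫_ℂ := by
          have := hJ.isJ.inner x (J (Θ y e ξ))
          rwa [hJ.isJ.invol] at this
        rw [h5, h4]
    ext x
    have : x ∈ V := hVtop ▸ Submodule.mem_top
    exact (hmem x).1 this

end Vale.Agent.P284.H619.T
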